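import Crest.Agent.X212.Lix26.Defs
import Crest.Agent.X212.Rs83.Ref
import Crest.Agent.X212.Lns4.Lin

/-!
# Row 212, LIX-REFL (helper83): a spin^c structure on `O(-4)` with determinant of degree `± 2`

The frames dual to the model coframes of the two charts differ by rotations in two planes; the spin lifts glue the
constant modules, and the clutching function of the determinant can be changed by any square.
-/

set_option autoImplicit false
set_option linter.unusedSectionVars false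

open Set Filter Topology Function Matrix Module TopologicalSpace
open scoped ContDiff Manifold ComplexConjugate
open Crest.Agent.X212.Pj41 Crest.Agent.X212.Met55 Crest.Agent.X212.Lab56 Crest.Agent.X212.Rs83
open Crest.Agent.X212.Lns95
open Crest.Agent.X212.Line51 (Ln Uni th ang sc)
open Crest.Agent.X212.Glue52 (dir)
open Crest.Agent.X212.Dr59 (Ex dM ne0)
open Crest.Agent.R208.F (Ext)

noncomputable section

namespace Crest.Agent.X212.Rfl83

variable {E : Type} [NormedAddCommGroup E] [NormedSpace ℝ E] [FiniteDimensional ℝ E]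
  {H : Type} [TopologicalSpace H] {I : ModelWithCorners ℝ E H} [I.Boundaryless]
  {M : Type} [TopologicalSpace M] [ChartedSpace H M] [IsManifold I ∞ M]

/-- two lines with the same change of frames -/
theorem ex_two {κ l : Type} [Fintype κ] [Fintype l] {O : Bool → Set M} (hO : ∀ b, IsOpen (O b)) {U : Set M}
    (hU : ∀ y ∈ U, ∃ b, y ∈ O b) {p : M → Matrix κ κ ℂ} {q : M → Matrix l l ℂ}
    {s : Bool → M → Matrix κ Unit ℂ} {t : Bool → M → Matrix l Unit ℂ}
    (hs : ∀ b, Uni I (fun _ => 1) p (s b) (O b)) (ht : ∀ b, Uni I (fun _ => 1) q (t b) (O b))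
    (h : ∀ x ∈ O false ∩ O true,
      th I (t true) x - th I (s true) x = th I (t false) x - th I (s false) x) :
    Ex I U (Ln.F I ⟨q, 0⟩ - Ln.F I ⟨p, 0⟩) := by
  classical
  let a : M → Ext E := fun x => if x ∈ O false then (th I (t false) - th I (s false)) x else
    (th I (t true) - th I (s true)) x
  have e : ∀ b, ∀ x ∈ O b, a =ᶠ[𝓝 x] th I (t b) - th I (s b) := fun b x hx =>
    eventually_of_mem ((hO b).mem_nhds hx) fun y hy => by
      cases b
      · exact if_pos hy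
      by_cases k : y ∈ O false
      · exact (if_pos k).trans (h y ⟨k, hy⟩).symm
      · exact if_neg k
  have f : ∀ {n : Type} [Fintype n] {p : M → Matrix n n ℂ} {s : M → Matrix n Unit ℂ} {b},
      Uni I (fun _ => 1) p s (O b) → ∀ x ∈ O b, Ln.F I ⟨p, 0⟩ x = dM I (th I s) x := fun {_ _ p s b} k x hx =>
    Line51.Iso.F_fr (L := ⟨p, 0⟩) (hO b) ⟨k, fun _ _ => add_zero _⟩ (fun _ _ => Dr59.cAt_zero) hx
  refine ⟨a, fun x hx => ?_, fun x hx => ?_⟩ <;> obtain ⟨b, k⟩ := hU x hx
  · exact (((ht b).sm_th x k).sub ((hs b).sm_th x k)).congr (e b x k)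
  · rw [Dr59.dM_congr (e b x k), Dr59.dM_sub ne0 ((ht b).sm_th x k) ((hs b).sm_th x k), Pi.sub_apply,
      f (hs b) x k, f (ht b) x k]

/-! ### dual frames -/

section dual
variable {α β : Fin 4 → E →ₗ[ℝ] ℝ} {v w : Fin 4 → E}

/-- `v` is dual to `α` -/
def Du (α : Fin 4 → E →ₗ[ℝ] ℝ) (v : Fin 4 → E) : Prop := ∀ i j, α i (v j) = if j = i then 1 else 0

theorem Du.exp (h : Du α v) (h4 : finrank ℝ E = 4) (x : E) : x = ∑ i, α i x • v i := by
  have := Onv.exp (α := α) (v := v) (fun i j => by simp [M.cm, h _ _, eq_comm]) h4 x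
  simpa [h _ _] using this

theorem du_dual {ι : Type} [Fintype ι] {r : ι → E} (h : (gr α r * (gr α r)ᵀ).det ≠ 0) :
    Du α (mix ((gr α r * (gr α r)ᵀ)⁻¹ * gr α r) r) := fun i j => by
  rw [← Matrix.one_apply, ← Matrix.nonsing_inv_mul _ (Ne.isUnit h), ← Matrix.mul_assoc, Matrix.mul_apply]
  simp [mix, gr]

/-- the exchange of the two planes -/
def sw : Matrix (Fin 4) (Fin 4) ℝ := !![0, 0, 1, 0; 0, 0, 0, 1; 1, 0, 0, 0; 0, 1, 0, 0]

theorem piso_sw : PIso swᵀ 1 1 := by
  refine ⟨?_, ?_, Matrix.mul_one _⟩ <;> rw [conjTranspose_eq_transpose_of_trivial, transpose_transpose] <;>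
    ext i j <;> fin_cases i <;> fin_cases j <;> simp [sw, mul_apply, Fin.sum_univ_four]

theorem Du.rot (h4 : finrank ℝ E = 4) {a b a' b' : E →ₗ[ℝ] ℂ} (h : Du (l4 a b) v) (h' : Du (l4 a' b') w)
    {p q : ℂ} (e : ∀ x, a x = p * a' x) (e' : ∀ x, b x = q * b' x) :
    mix sw w = mix (rt p) (mix sw (mix (rt q) v)) := by
  have k : ∀ j, w j = ∑ i, l4 a b i (w j) • v i := fun j => h.exp h4 _
  have A : ∀ j, a' (w j) = ⟨if j = 0 then 1 else 0, if j = 1 then 1 else 0⟩ := fun j =>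
    Complex.ext (h' 0 j) (h' 1 j)
  have B : ∀ j, b' (w j) = ⟨if j = 2 then 1 else 0, if j = 3 then 1 else 0⟩ := fun j =>
    Complex.ext (h' 2 j) (h' 3 j)
  simp only [Fin.sum_univ_four, l4, Matrix.cons_val, LinearMap.comp_apply, Complex.reLm_coe,
    Complex.imLm_coe, e, e', A, B] at k
  funext c
  fin_cases c <;> simp [mix, sw, rt, Fin.sum_univ_four, k]

end dual

theorem pol_mix (h4 : finrank ℝ E = 4) {e w : Fin 4 → VF I M} {x : M} {S : Matrix (Fin 4) (Fin 4) ℝ}
    (he : Sp (atx e x)) (hw : Sp (atx w x)) (hS : PIso Sᵀ 1 1) (h : atx w x = mix S (atx e x)) :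
    pol e w x = Sᵀ := by
  have k : fM e w x = Sᵀ := by
    rw [fM, h, tm_mix, show prj _ _ = 1 from fP_one h4 he, Matrix.one_mul]
  rw [pol_of_piso (by rw [k, fP_one h4 he, fP_one h4 hw]; exact hS), k]

theorem fAt_mix {e : Fin 4 → VF I M} {x : M} {S : M → Matrix (Fin 4) (Fin 4) ℝ} (he : FAt e x)
    (hs : MSm I S x) (hS : PIso (S x)ᵀ 1 1) : FAt (mixF S e) x :=
  ⟨vAt_mixF hs he.sm, he.sp.mix (by
    rw [← det_transpose]; exact isUnit_det_of_left_inverse hS.src)⟩

theorem msm_rt {z : M → ℂ} {x : M} (h : FSm I z x) : MSm I (fun y => rt (z y)) x := fun i j => by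
  have a := Line51.fsm_re h
  have b := Line51.fsm_im h
  fin_cases i <;> fin_cases j <;> first | exact a | exact b | exact b.neg | exact contMDiffAt_const

variable [T2Space M] [SigmaCompactSpace M] {j : Matrix (Fin 4 × Fin 4) Unit ℂ}

/-- rotations in two planes -/
theorem ri_two (h4 : finrank ℝ E = 4) (hj : PIso j 1 dl) {O : Set M} (hO : IsOpen O) {e w : Fin 4 → VF I M}
    {p q : M → ℂ} (sp : ∀ x ∈ O, FSm I p x) (sq : ∀ x ∈ O, FSm I q x) (np : ∀ x ∈ O, ‖p x‖ = 1)
    (nq : ∀ x ∈ O, ‖q x‖ = 1) (he : ∀ x ∈ O, FAt e x) (hw : ∀ x ∈ O, FAt w x)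
    (h : ∀ x ∈ O, atx w x = mix (rt (p x)) (mix sw (mix (rt (q x)) (atx e x)))) :
    RI (cst e) (fun _ => j) (cst w) (fun x => q x • p x • j) O := by
  have f1 := fun x hx => fAt_mix (S := fun y => rt (q y)) (he x hx) (msm_rt (sq x hx)) (piso_rt (nq x hx))
  have f2 := fun x hx => fAt_mix (S := fun _ => sw) (f1 x hx) (MSm.const _) piso_sw
  have r0 := rf_cst h4 he hj
  have r1 := rf_cst h4 f1 hj
  have r2 := rf_cst h4 f2 hj
  have r3 := rf_cst h4 hw hj
  have i1 := ri_rot h4 hj sq nq (fun x hx => (he x hx).sp) (fun _ _ => rfl) fun x hx => (f1 x hx).sp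
  have i2 := ri_const hj piso_sw fun x hx => pol_mix h4 (f1 x hx).sp (f2 x hx).sp piso_sw rfl
  have i3 := ri_rot h4 hj sp np (fun x hx => (f2 x hx).sp) h fun x hx => (hw x hx).sp
  exact i1.trans hO r0 r1.ok r3.ok ((i2.trans hO r1 r2.ok r3.ok i3).smul q)

/-- gluing with sections -/
theorem glue {ι κ : Type} [Fintype ι] [Fintype κ] [DecidableEq ι] [DecidableEq κ] {U V : Set M} (hU : IsOpen U)
    (hV : IsOpen V) (hn : (U ∪ V).Nonempty) {d d' : Sc I M ι κ} {a b : M → Matrix (κ × κ) Unit ℂ} {c : M → ℂ}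
    (h : Rf d a U) (h' : Rf d' b V) (i : RI d a d' (fun x => c x • b x) (U ∩ V)) :
    ∃ (g : Sc I M (ι ⊕ ι) (κ ⊕ κ)) (s t : M → Matrix ((κ ⊕ κ) × (κ ⊕ κ)) Unit ℂ), g.On (U ∪ V) ∧
      Uni I (fun _ => 1) g.det s U ∧ Uni I (fun _ => 1) g.det t V ∧ ∀ x ∈ U ∩ V, s x = c x • t x := by
  let A : Opens M := ⟨U ∪ V, hU.union hV⟩
  have := sigma_opens (I := I) A
  have : Nonempty A := hn.to_subtype
  have hv := Cyl58.isOE_val (IA := I) A
  have t : hv.pd.target = U ∪ V := Subtype.range_val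
  have r : ∀ x ∈ U ∪ V, (hv.pd.symm x : M) = x := fun x hx => hv.pd.right_inv (t.ge hx)
  have k1 := h.pull (W := Subtype.val ⁻¹' U) (fun y _ => hv.loc y) (mapsTo_preimage _ _)
  have k2 := h'.pull (W := Subtype.val ⁻¹' V) (fun y _ => hv.loc y) (mapsTo_preimage _ _)
  obtain ⟨u, i, e⟩ := i.pull (W := Subtype.val ⁻¹' U ∩ Subtype.val ⁻¹' V) (h.ok.mono inter_subset_left)
    (h'.ok.mono inter_subset_right) (fun y _ => hv.loc y) fun _ hy => hy
  obtain ⟨g, m, m', g1, g2, g3, g4⟩ := Sc.exists_glue (hU.preimage hv.continuous) (hV.preimage hv.continuous)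
    (eq_univ_of_forall fun y => y.2) k1.ok k2.ok i
  have ld := fun x (hx : x ∈ U ∪ V) => Rod53.ld_pd hv.pd.symm (t.ge hx)
  have mU : MapsTo hv.pd.symm U (Subtype.val ⁻¹' U) := fun x hx =>
    show _ ∈ U from (r x (Or.inl hx)).symm ▸ hx
  have mV : MapsTo hv.pd.symm V (Subtype.val ⁻¹' V) := fun x hx =>
    show _ ∈ V from (r x (Or.inr hx)).symm ▸ hx
  refine ⟨g.pull I hv.pd.symm, _, _, g1.pull ld (mapsTo_univ _ _),
    ((k1.iw (g1.mono (subset_univ _)) g2).pull (fun x hx => ld x (Or.inl hx)) mU).sec,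
    ((k2.iw (g1.mono (subset_univ _)) g3).pull (fun x hx => ld x (Or.inr hx)) mV).sec, fun x hx => ?_⟩
  have y1 := mU hx.1
  have y2 := mV hx.2
  rw [← congrArg c (r x (Or.inl hx.1))]
  generalize hv.pd.symm x = y at y1 y2
  rw [← (k1.sec.iso y y1).left, ← Matrix.mul_assoc, g4 y ⟨y1, y2⟩, Matrix.mul_assoc, (k1.sec.iso y y1).left,
    Matrix.mul_assoc, e y ⟨y1, y2⟩, Matrix.mul_smul]

/-! ### the two charts -/

section chart
variable [MeasurableSpace E] [BorelSpace E] [MeasurableSpace M] [BorelSpace M] [SecondCountableTopology M]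
  {o : M → Ext E} {n : ℕ} (P : Prf n) (h4 : finrank ℝ E = 4)
include h4

theorem exists_dual {O : Set M} {u w : M → ℂ} (C : Ch I o O u w) : ∃ e : Fin 4 → VF I M,
    ∀ y ∈ O, FAt e y ∧ Du (Lns4.cvP I P u w y) (atx e y) := by
  let r : M → Fin (finrank ℝ E) → VF I M := fun p i => cf I p (finBasis ℝ E i)
  have hr : ∀ p, ∀ y ∈ (chartAt H p).source, FAt (r p) y := fun p y k => ⟨fun _ => vAt_cf k _, sp_cf k⟩
  have du : ∀ p, ∀ y ∈ (chartAt H p).source, y ∈ O → Du (Lns4.cvP I P u w y) (atx (Lns4.dl P u w (r p)) y) :=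
    fun p y k hy => du_dual (Lns4.det_cv C P h4 (hr p y k) hy)
  refine ⟨fun c y => Lns4.dl P u w (r y) c y, fun y hy => ⟨?_, du y y (mem_chart_source H y) hy⟩⟩
  refine (Lns4.fAt_dl C P h4 (hr y y (mem_chart_source H y)) hy).congr ?_
  filter_upwards [C.op.mem_nhds hy, chart_source_mem_nhds H y] with z hz k c
  have a := du z z (mem_chart_source H z) hz
  have b := du y z k hz
  refine (b.exp h4 _).trans (Eq.trans ?_ (b.exp h4 (atx _ z c)).symm)
  exact Finset.sum_congr rfl fun i _ => congrArg (· • _) ((a i c).trans (b i c).symm)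

omit h4 in
theorem chg {N : Set M} (D : Dsc I o n N) {y : M} (hy : y ∈ D.O false ∩ D.O true) (p q : ℝ) (x : E) :
    (lF n p q (D.u true y) (D.w true y) ∘ₗ dP I (D.u true) (D.w true) y) x = (dir (D.u false y) : ℂ) ^ n *
      (lF n p q (D.u false y) (D.w false y) ∘ₗ dP I (D.u false) (D.w false) y) x := by
  have h1 : ‖(dir (D.u false y) : ℂ) ^ n‖ = 1 := by rw [norm_pow, Circle.norm_coe, one_pow]
  have := (D.chg hy fun _ => x).2
  refine (lF_eq ..).trans (Eq.trans ?_ (congrArg _ (lF_eq ..).symm))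
  rw [show lD n _ _ (dP I (D.u true) (D.w true) y x) = lD n _ _ (dP I (D.u false) (D.w false) y x) * _
    from this, D.tw y hy, Circle.coe_pow, lr_unit h1]
  ring

/-- the clutching function of the determinant is any even power -/
theorem exists_sc {N : Set M} (D : Dsc I o 4 N) (P : Prf 4) (hn : N.Nonempty) (k : ℤ) :
    ∃ (g : Sc I M (Fin 4 ⊕ Fin 4) (Fin 4 ⊕ Fin 4)) (t : Bool → M → Matrix _ Unit ℂ), g.On N ∧
      (∀ b, Uni I (fun _ => 1) g.det (t b) (D.O b)) ∧
      ∀ x ∈ D.O false ∩ D.O true, t true x = t false x * sc ((fun x => dir (D.u false x)) ^ (2 * k)) x := by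
  obtain ⟨j, hj⟩ := exists_col p4_one pc_gam.bar pc_gam
  choose e he using fun b => exists_dual P h4 (D.ch b)
  have hO := (D.ch true).op.inter (D.ch false).op
  have sd : ∀ x ∈ D.O true ∩ D.O false, Line51.CSm I (fun x => dir (D.u false x)) x := fun x hx =>
    Rod53.cm_dir ((D.ch false).su x hx.2) (D.ne false x ⟨hx.2, hx.1⟩)
  have f := fun x hx => fAt_mix (S := fun _ => sw) (he false x hx).1 (MSm.const _) piso_sw
  obtain ⟨σ, i, hσ⟩ := ri_two h4 hj hO (e := e true) (w := mixF (fun _ => sw) (e false))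
    (p := fun x => (((fun x => dir (D.u false x)) ^ 4) x : Circle))
    (q := fun x => -(((fun x => dir (D.u false x))⁻¹ ^ 2) x : Circle))
    (fun x hx => Rod53.cm_coe ((sd x hx).pow 4)) (fun x hx => (Rod53.cm_coe ((sd x hx).inv.pow 2)).neg)
    (fun _ _ => Circle.norm_coe _) (fun _ _ => by rw [norm_neg, Circle.norm_coe])
    (fun x hx => (he true x hx.1).1) (fun x hx => f x hx.2) fun x hx =>
      Du.rot h4 (he true x hx.1).2 (he false x hx.2).2 (fun v => by
        have := chg D ⟨hx.2, hx.1⟩ (P.p1 (‖D.w true x‖ ^ 2)) (P.p2 (‖D.w true x‖ ^ 2)) v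
        rw [Pi.pow_apply, Circle.coe_pow, ← D.nw ⟨hx.2, hx.1⟩]
        exact this) fun v => by
        rw [Pi.pow_apply, Pi.inv_apply, Circle.coe_pow, Circle.coe_inv_eq_conj]
        exact (D.chg ⟨hx.2, hx.1⟩ fun _ => v).1
  have c : D.O true ∪ D.O false = N := ext fun y => by rw [D.cov, Bool.exists_bool, or_comm]; rfl
  obtain ⟨g, s, t, g1, g2, g3, g4⟩ := glue (D.ch true).op (D.ch false).op (c.symm ▸ hn)
    (rf_cst h4 (fun x hx => (he true x hx).1) hj) (rf_cst h4 f hj)
    (c := fun x => (((fun x => dir (D.u false x)) ^ (2 * k)) x : Circle))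
    (ri_of_sq i (c := fun x => Complex.I * (((fun x => dir (D.u false x)) ^ (k - 1)) x : Circle))
      (fun x hx => FSm.mul' contMDiffAt_const (Rod53.cm_coe ((sd x hx).zpow _)))
      (fun _ _ => by rw [norm_mul, Circle.norm_coe, Complex.norm_I, one_mul]) fun x hx => by
        rw [hσ x hx, smul_smul, smul_smul]
        congr 1
        have := Circle.coe_ne_zero (dir (D.u false x))
        simp only [Pi.pow_apply, Pi.inv_apply, Circle.coe_pow, Circle.coe_zpow, Circle.coe_inv, mul_pow,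
          Complex.I_sq, zpow_sub₀ this, two_mul, zpow_add₀ this]
        field_simp)
  exact ⟨g, fun b => cond b s t, c ▸ g1, by rintro (_ | _); exacts [g3, g2], fun x hx =>
    (g4 x ⟨hx.2, hx.1⟩).trans (mul_sc _ _ _).symm⟩

end chart

omit [SigmaCompactSpace M] in
/-- **LIX-REFL** -/
theorem refl [MeasurableSpace E] [BorelSpace E] [MeasurableSpace M] [BorelSpace M] [SecondCountableTopology M]
    (lam : Type) [Fintype lam] [DecidableEq lam] : Lix26.ReflStmt I M lam := by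
  intro o Ω D P μ L s h4 hμ _ hs
  have := I.locallyCompactSpace
  have := ChartedSpace.locallyCompactSpace H M
  obtain ⟨k, hk⟩ : ∃ k : ℤ, -(μ * 4) = (2 * k : ℤ) := by
    rcases (abs_eq (by norm_num)).1 hμ with rfl | rfl
    exacts [⟨-1, by norm_num⟩, ⟨1, by norm_num⟩]
  rcases Ω.eq_empty_or_nonempty with rfl | hn
  · exact ⟨Fin 4, Fin 4, _, inferInstance, _, inferInstance, cst fun _ _ => 0,
      on_of_loc fun _ k => k.elim, 0, fun _ k => k.elim, fun _ k => k.elim⟩
  obtain ⟨g, t, g1, g2, g3⟩ := exists_sc h4 D P hn k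
  refine ⟨_, _, _, inferInstance, _, inferInstance, g, g1, ?_⟩
  rw [smul_zero, sub_zero]
  refine ex_two (fun b => (D.ch b).op) (fun y => (D.cov y).1) (fun b => (hs b).toUni) g2 fun x hx => ?_
  have c := Rod53.cm_dir ((D.ch false).su x hx.1) (D.ne false x hx)
  have e1 := Line51.th_congr (I := I) (eventually_of_mem (((D.ch false).op.inter (D.ch true).op).mem_nhds hx) g3)
  rw [Line51.th_trans (Line51.msm_sc (Line51.CSm.zpow c _)) ((g2 false).sm x hx.1) (Line51.piso_sc _ x)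
    ((g2 false).iso x hx.1), ← ang, Line51.ang_zpow c, ← hk] at e1
  have e2 := Lns4.al_chg P μ D (by norm_num) hx
  rw [← show _ = P.al I μ _ _ x from (hs true).par x hx.2, ← show _ = P.al I μ _ _ x from (hs false).par x hx.1,
    Nat.cast_ofNat] at e2
  rw [e1, eq_sub_of_add_eq e2, neg_smul]
  abel

end Crest.Agent.X212.Rfl83
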